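import Vale.Agent.P057SR.Gen

/-!
A shear by narrower vertices almost preserves densities.
-/

set_option linter.all false

open Matrix Finset Real
open Vale.Agent.P267.H775 Vale.Agent.P057G Vale.Agent.P057MA Vale.Agent.P057PC
open Vale.Agent.P057TP Vale.Agent.P057GH Vale.Agent.P057DP
open Vale.Agent.P057T1 (ind ind_nonneg ind_le)

namespace Vale.Agent.P057SR

noncomputable section

section coef

variable {C W : Type} [DecidableEq W] {cl : W → C} {M : W → W → ℤ} {A B : Finset W}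

/-- the coefficient of a substitution -/
def cf (M : W → W → ℤ) (A B : Finset W) : ℤ := ∏ x ∈ A, ∑ v ∈ B, M x v

theorem abs_cf (h : Cm cl cl M) (hB : Set.InjOn cl B) : |cf M A B| ≤ 1 := by
  rw [cf, abs_prod]
  refine prod_le_one (fun _ _ => abs_nonneg _) fun x _ => ?_
  by_cases h0 : ∑ v ∈ B, M x v = 0
  · rw [h0]; simp
  · obtain ⟨v, hv, h1⟩ := exists_ne_zero_of_sum_ne_zero h0
    rw [sum_eq_single_of_mem v hv fun u hu e => by_contra fun h2 =>
      e (hB hu hv (((h x u).1 h2).symm.trans ((h x v).1 h1)))]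
    exact (h x v).2

theorem cf_ne (h0 : cf M A B ≠ 0) {x : W} (hx : x ∈ A) : ∃ v ∈ B, M x v ≠ 0 :=
  exists_ne_zero_of_sum_ne_zero (prod_ne_zero_iff.1 h0 x hx)

theorem cf_bij (h : Cm cl cl M) (hA : Set.InjOn cl A) (hc : A.card = B.card)
    (h0 : cf M A B ≠ 0) : ∃ β : W → W, (∀ x ∈ A, M x (β x) ≠ 0) ∧ Set.InjOn β A ∧
      A.image β = B := by
  have : ∀ x, ∃ v, x ∈ A → v ∈ B ∧ M x v ≠ 0 := fun x => by
    by_cases hx : x ∈ A
    · obtain ⟨v, hv⟩ := cf_ne h0 hx
      exact ⟨v, fun _ => hv⟩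
    · exact ⟨x, fun k => absurd k hx⟩
  choose β hβ using this
  have hi : Set.InjOn β A := fun x hx y hy e => hA hx hy
    (((h x _).1 (hβ x hx).2).trans (by rw [e]; exact ((h y _).1 (hβ y hy).2).symm))
  refine ⟨β, fun x hx => (hβ x hx).2, hi, eq_of_subset_of_card_le (fun v hv => ?_) ?_⟩
  · obtain ⟨x, hx, rfl⟩ := mem_image.1 hv
    exact (hβ x hx).1
  · rw [card_image_of_injOn hi, hc]

theorem prod_cf {σ : W → ℝ} {δ : ℝ} {β : W → W} (hσ : ∀ x, 0 ≤ σ x) (hδ : δ ^ 2 ≤ 1)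
    (hi : Set.InjOn β A) (h : ∀ x ∈ A, x = β x ∨ σ (β x) ≤ δ ^ 2 * σ x) :
    A = A.image β ∨ ∏ v ∈ A.image β, σ v ≤ δ ^ 2 * ∏ v ∈ A, σ v := by
  by_cases h0 : ∀ x ∈ A, β x = x
  · exact Or.inl (by rw [image_congr (g := id) h0, image_id])
  · push Not at h0
    obtain ⟨x, hx, h1⟩ := h0
    refine Or.inr ?_
    rw [prod_image hi, ← mul_prod_erase _ _ hx, ← mul_prod_erase _ σ hx, ← mul_assoc]
    refine mul_le_mul ((h x hx).resolve_left (Ne.symm h1)) (prod_le_prod (fun _ _ => hσ _)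
      fun y hy => ?_) (prod_nonneg fun _ _ => hσ _) (mul_nonneg (sq_nonneg δ) (hσ x))
    rcases h y (mem_erase.1 hy).2 with e | e
    · exact (congrArg σ e).ge
    · exact e.trans (mul_le_of_le_one_left (hσ y) hδ)

end coef

section slice

variable {T : Tow} {C W : Type} [Fintype W] [DecidableEq W] {cl : W → C} {m : ℕ}
  {M : W → W → ℤ}

theorem bs_none (l : Lb T cl Empty m) : l.bs = none := by
  rcases l.bs with _ | e
  exacts [rfl, e.elim]

theorem card_fc (l : Lb T cl Empty m) : l.fc.card = T.lv l.cd := by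
  have h := l.2.2.2
  rw [show l.1.2.2 = none from bs_none l] at h
  exact h

open Classical in
/-- the coordinates on the face `A` -/
def sl (T : Tow) (cl : W → C) (m : ℕ) (A : Finset W) : Matrix T.ι (Lb T cl Empty m) ℝ :=
  Matrix.of fun c l => if l.cd = c ∧ l.fc = A then 1 else 0

theorem qq_sl (a : Finset W → Option Empty → ℝ) (u : Lb T cl Empty m → ℝ) :
    qq (sG T cl Empty m a) u = ∑ A, a A none * qq T.G (sl T cl m A *ᵥ u) := by
  have e : sG T cl Empty m a = ∑ A, a A none • ((sl T cl m A)ᵀ * T.G * sl T cl m A) := by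
    ext l l'
    simp only [Matrix.sum_apply, Matrix.smul_apply, mul_apply, transpose_apply, sl, of_apply,
      ite_and, ite_mul, mul_ite, one_mul, mul_one, zero_mul, mul_zero, sum_ite_eq, mem_univ,
      if_true, smul_eq_mul, sG, Gam, bs_none, and_true]
    by_cases h : l.fc = l'.fc
    · simp [h]
    · simp [h]
  rw [e]
  simp only [← qq_conj, ← qq_smul_mat]
  simp only [qq, sum_mulVec, dotProduct_sum]

open Classical in
/-- the coefficient between faces of equal size -/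
def cg (cl : W → C) (M : W → W → ℤ) (A B : Finset W) : ℝ :=
  if A.card = B.card ∧ Set.InjOn cl A ∧ Set.InjOn cl B then cf M A B else 0

theorem sl_sub (u : Lb T cl Empty m → ℝ) (B : Finset W) :
    sl T cl m B *ᵥ sub M u = ∑ A, cg cl M A B • sl T cl m A *ᵥ u := by
  classical
  funext c
  have e : (∑ A, cg cl M A B • sl T cl m A *ᵥ u) c =
      ∑ l : Lb T cl Empty m, if l.cd = c then cg cl M l.fc B * u l else 0 := by
    simp only [Finset.sum_apply, Pi.smul_apply, mulVec, dotProduct, sl, of_apply, smul_eq_mul,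
      mul_sum]
    rw [sum_comm]
    refine sum_congr rfl fun l _ => ?_
    simp [ite_and]
  rw [e]
  by_cases h : ∃ k : Lb T cl Empty m, k.cd = c ∧ k.fc = B
  · obtain ⟨k, rfl, rfl⟩ := h
    rw [mulVec, dotProduct, sum_eq_single k, sl, of_apply, if_pos ⟨rfl, rfl⟩, one_mul, P057DP.sub]
    · refine sum_congr rfl fun l _ => ?_
      split_ifs with h1
      · rw [cg, if_pos ⟨by rw [card_fc, card_fc, h1], l.2.2.1, k.2.2.1⟩, cf]
      · rfl
    · intro l _ hl
      rw [sl, of_apply, if_neg, zero_mul]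
      exact fun h1 => hl (lb_ext h1.1 h1.2 ((bs_none l).trans (bs_none k).symm))
    · exact fun h1 => absurd (mem_univ k) h1
  · rw [mulVec, dotProduct, sum_eq_zero, sum_eq_zero]
    · intro l _
      split_ifs with h1
      · rw [cg, if_neg, zero_mul]
        exact fun h2 => h ⟨⟨(l.cd, B, none), l.2.1, h2.2.2, h2.1.symm.trans (card_fc l)⟩, h1, rfl⟩
      · rfl
    · intro l _
      rw [sl, of_apply, if_neg fun h1 => h ⟨l, h1⟩, zero_mul]

theorem sub_congr {R : Type} [CommRing R] {z z' : Lb T cl Empty m → R} {k : Lb T cl Empty m}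
    (h : ∀ l : Lb T cl Empty m, l.cd = k.cd → cf M l.fc k.fc ≠ 0 → z l = z' l) :
    sub M z k = sub M z' k := by
  refine sum_congr rfl fun l _ => ?_
  split_ifs with h1
  · by_cases h2 : cf M l.fc k.fc = 0
    · rw [show ∏ x ∈ l.fc, ∑ v ∈ k.fc, M x v = 0 from h2]; simp
    · rw [h l h1 h2]
  · rfl

theorem sub_zero' {R : Type} [CommRing R] (k : Lb T cl Empty m) :
    sub M (0 : Lb T cl Empty m → R) k = 0 := by simp [P057DP.sub]

theorem sub_sub' (u v : Lb T cl Empty m → ℝ) (k : Lb T cl Empty m) :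
    sub M (u - v) k = sub M u k - sub M v k := by
  simp only [P057DP.sub, ← sum_sub_distrib, Pi.sub_apply]
  exact sum_congr rfl fun l _ => by split_ifs <;> ring

theorem toR_sub_lb (z : Lb T cl Empty m → ℤ) :
    toR (sub M z : Lb T cl Empty m → ℤ) = sub M (toR z) := by
  funext k
  simp only [P057DP.sub, toR_apply, Int.cast_sum, apply_ite (Int.cast : ℤ → ℝ), Int.cast_mul,
    Int.cast_zero, Int.cast_id]

theorem sub_inv (hC : SUBC) {M' : W → W → ℤ} (h : Cm cl cl M) (h' : Cm cl cl M')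
    (e : ∀ y v, ∑ x, M' y x * M x v = if y = v then 1 else 0) (z : Lb T cl Empty m → ℤ) :
    (sub M (sub M' z : Lb T cl Empty m → ℤ) : Lb T cl Empty m → ℤ) = z := by
  obtain ⟨h1, h2⟩ := hC T C W W m cl cl ℤ
  rw [h1 W cl M M' h h' z]
  have h3 := h2 id (fun _ _ => Iff.rfl) Function.injective_id z
  have h4 : (fun y v => ∑ x, M' y x * M x v) = fun x v => if id v = x then 1 else 0 := by
    funext y v
    rw [e]
    exact if_congr eq_comm rfl rfl
  rw [h4, ← h3]
  funext l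
  exact congrArg z (lb_ext rfl image_id ((bs_none _).trans (bs_none l).symm))

end slice

section main

variable {T : Tow} {C W X : Type} [Fintype W] [DecidableEq W] [Fintype X] [DecidableEq X]
  {cl : W → C} {m : ℕ} {O : Ov W X} {M M' : X → X → ℤ} {P : X → Prop}

theorem mem_b0 {l : LT T cl m O} : l ∈ b0 T cl m O Unit Empty P ↔
    ∀ v ∈ l.fc, ∃ x, v = Sum.inl x ∧ P x := by
  unfold b0
  rw [@mem_filter _ _ (_)]
  refine ⟨fun h v hv => ?_, fun h => ⟨mem_univ _, ⟨bs_none l, fun k hk => ?_⟩, fun x hx => ?_⟩⟩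
  · rcases v with x | k
    exacts [⟨x, rfl, h.2.2 x hv⟩, absurd hv (h.2.1.2 k)]
  · obtain ⟨x, e, -⟩ := h _ hk
    cases e
  · obtain ⟨y, e, hy⟩ := h _ hx
    rwa [Sum.inl_injective e]

theorem cm_ex (h : Sm cl O O M P P) : Cm (O.cl cl Unit) (O.cl cl Unit) (ex M) := by
  rintro (x | x) (v | v)
  · exact ⟨fun h0 => congrArg some (h.cls x v h0), h.le x v⟩
  · simp [ex]
  · simp [ex]
  · simp [ex, Ov.cl]

theorem jm_ex (h : Sm cl O O M P P) :
    Jm (O.j Unit) (O.j Unit) (ex M) fun v => ∃ x, v = Sum.inl x ∧ P x := by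
  rintro _ ⟨v, rfl, hv⟩ w
  have e : ∀ x, O.j Unit (Sum.inl x) = some w ↔ O.jk x ∧ O.π x = w := fun x => by
    by_cases k : O.jk x <;> simp [Ov.j, k]
  rw [Fintype.sum_sum_type]
  simp only [e]
  rw [← h.jk v hv w]
  simp [ex]

theorem ex_inv (e : ∀ x v, ∑ y, M x y * M' y v = if x = v then 1 else 0) (y v : X ⊕ Unit) :
    ∑ x, ex M y x * ex M' x v = if y = v then 1 else 0 := by
  rcases y with y | y <;> rcases v with v | v <;> simp [ex, e]

theorem ex_inl {x : X} {v : X ⊕ Unit} (h : ex M (Sum.inl x) v ≠ 0) :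
    ∃ y, v = Sum.inl y ∧ M x y ≠ 0 := by
  rcases v with y | k
  exacts [⟨y, rfl, h⟩, absurd rfl h]

theorem ex_inl' {x : X ⊕ Unit} {v : X} (h : ex M x (Sum.inl v) ≠ 0) :
    ∃ y, x = Sum.inl y ∧ M y v ≠ 0 := by
  rcases x with y | k
  exacts [⟨y, rfl, h⟩, absurd rfl h]

theorem b0_up (h : Sm cl O O M P P) (hP : ∀ x v, M x v ≠ 0 → P x → P v) {l k : LT T cl m O}
    (e : l.cd = k.cd) (h0 : cf (ex M) l.fc k.fc ≠ 0) (hl : l ∈ b0 T cl m O Unit Empty P) :
    k ∈ b0 T cl m O Unit Empty P := by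
  obtain ⟨β, h1, -, h3⟩ := cf_bij (A := l.fc) (cm_ex h) l.2.2.1 (by rw [card_fc, card_fc, e]) h0
  refine mem_b0.2 fun v hv => ?_
  rw [← h3] at hv
  obtain ⟨x, hx, rfl⟩ := mem_image.1 hv
  obtain ⟨y, rfl, hy⟩ := mem_b0.1 hl x hx
  obtain ⟨u, e1, e2⟩ := ex_inl (h1 _ hx)
  exact ⟨u, e1, hP _ _ e2 hy⟩

theorem b0_dn (h : Sm cl O O M P P) {l k : LT T cl m O} (h0 : cf (ex M) l.fc k.fc ≠ 0)
    (hk : k ∈ b0 T cl m O Unit Empty P) : l ∈ b0 T cl m O Unit Empty P := by
  refine mem_b0.2 fun x hx => ?_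
  obtain ⟨v, hv, h1⟩ := cf_ne h0 hx
  obtain ⟨y, rfl, hy⟩ := mem_b0.1 hk v hv
  obtain ⟨u, e1, e2⟩ := ex_inl' h1
  exact ⟨u, e1, h.dom _ _ e2 hy⟩

theorem supp_sub (h : Sm cl O O M P P) (hP : ∀ x v, M x v ≠ 0 → P x → P v) {R : Type}
    [CommRing R] {z : LT T cl m O → R} (hz : ∀ i, i ∉ b0 T cl m O Unit Empty P → z i = 0)
    (k : LT T cl m O) (hk : k ∉ b0 T cl m O Unit Empty P) : sub (ex M) z k = 0 := by
  rw [← sub_zero' (M := ex M) k]
  exact sub_congr fun l e h0 => hz l fun hl => hk (b0_up h hP e h0 hl)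

theorem dc_b0 (Z : Sys T W Unit) (a : Finset (X ⊕ Unit) → Option Empty → ℝ)
    (c : LT T cl m O → ℝ) : Dc (O.ms cl m Z Unit Empty a c) (b0 T cl m O Unit Empty P) :=
  fun i hi j hj => mem_b0.2 fun v hv => mem_b0.1 hi v ((cub_sub.1 hj).1 hv)

theorem sc_one {σ : X → ℝ} (hσ : ∀ x, 1 ≤ σ x) (A : Finset (X ⊕ Unit)) : 1 ≤ sc σ A :=
  prod_const_one.ge.trans (prod_le_prod (fun _ _ => zero_le_one) fun v _ => by
    cases v; exacts [hσ _, le_rfl])

/-- the shear almost preserves lengths -/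
theorem qq_shear (hG : T.G.PosDef) (h : Sm cl O O M P P) {σ : X → ℝ} {δ : ℝ} (hσ : ∀ x, 1 ≤ σ x)
    (hδ : 0 ≤ δ) (hε : 2 ^ Fintype.card X * δ ≤ 1)
    (hM : ∀ x v, M x v ≠ 0 → x = v ∨ σ v ≤ δ ^ 2 * σ x) {u : LT T cl m O → ℝ}
    (hu : ∀ l, Sum.inr () ∈ l.fc → u l = 0) :
    qq (sG T _ Empty m fun A _ => if Sum.inr () ∈ A then 1 else sc σ A)
      (sub (ex M) u : LT T cl m O → ℝ) ≤ (1 + 3 * (2 ^ Fintype.card X * δ)) *
      qq (sG T _ Empty m fun A _ => if Sum.inr () ∈ A then 1 else sc σ A) u := by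
  rw [qq_sl, qq_sl]
  simp only [sl_sub]
  have ms : ∀ A : Finset (X ⊕ Unit), A ∈ (univ.image Sum.inl).powerset ↔ Sum.inr () ∉ A :=
    fun A => by
      rw [mem_powerset]
      refine ⟨fun k e => by simpa using k e, fun k v hv => ?_⟩
      rcases v with x | _
      exacts [by simp, absurd hv k]
  have d1 : δ ^ 2 ≤ 1 :=
    pow_le_one₀ hδ ((le_mul_of_one_le_left hδ (one_le_pow₀ one_le_two)).trans hε)
  refine blk_le hG.posSemidef (univ.image Sum.inl).powerset _ (fun A hA => ?_) _ (fun A => ?_) _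
    (fun A B => ?_) hδ ?_ hε fun A hA B h0 => ?_
  · rw [ms, not_not] at hA
    funext c
    refine sum_eq_zero fun l _ => ?_
    beta_reduce
    rw [sl, of_apply]
    split_ifs with k
    · rw [hu l (k.2 ▸ hA), mul_zero]
    · exact zero_mul _
  · split_ifs
    exacts [zero_le_one, zero_le_one.trans (sc_one hσ A)]
  · rw [cg]
    split_ifs with k
    · exact_mod_cast abs_cf (cm_ex h) k.2.2
    · simp
  · rw [card_powerset, card_image_of_injective _ Sum.inl_injective, card_univ]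
    simp
  · rw [cg] at h0
    split_ifs at h0 with k
    swap
    · exact absurd rfl h0
    obtain ⟨β, h1, h2, rfl⟩ := cf_bij (cm_ex h) k.2.1 k.1 (Int.cast_ne_zero.1 h0)
    rw [ms] at hA
    have h3 : ∀ x ∈ A, ∃ y v, x = Sum.inl y ∧ β x = Sum.inl v ∧ M y v ≠ 0 := fun x hx => by
      rcases x with y | _
      · obtain ⟨v, e1, e2⟩ := ex_inl (h1 _ hx)
        exact ⟨y, v, rfl, e1, e2⟩
      · exact absurd hx hA
    have hB : Sum.inr () ∉ A.image β := fun k => by
      obtain ⟨x, hx, e⟩ := mem_image.1 k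
      obtain ⟨y, v, -, e1, -⟩ := h3 x hx
      rw [e] at e1
      cases e1
    refine ⟨(ms _).2 hB, ?_⟩
    rw [if_neg hA, if_neg hB]
    refine prod_cf (fun v => ?_) d1 h2 fun x hx => ?_
    · cases v
      exacts [zero_le_one.trans (hσ _), zero_le_one]
    · obtain ⟨y, v, rfl, e1, e2⟩ := h3 x hx
      rw [e1]
      exact (hM y v e2).imp (congrArg Sum.inl) id

end main

theorem shr (hP : SUBP) (hC : SUBC) : SHR := by
  intro T s N C W X _ _ _ _ Z cl m O M M' P σ n L η δ E hT hZ h h' p p' e e' hσ hδ hε hM hA hη hn hL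
  have ε0 : 0 ≤ 2 ^ Fintype.card X * δ := by positivity
  have a0 : ∀ (A : Finset (X ⊕ Unit)) (o : Option Empty),
      0 < if Sum.inr () ∈ A then 1 else sc σ A := fun A _ => by
    split_ifs
    exacts [one_pos, one_pos.trans_le (sc_one hσ A)]
  have a1 : ∀ t, 0 < t → t ≤ 4 → Tr (O.ms cl m Z Unit Empty
      (fun A _ => t * if Sum.inr () ∈ A then 1 else sc σ A) 0) ∧ Lf (O.ms cl m Z Unit Empty
      (fun A _ => t * if Sum.inr () ∈ A then 1 else sc σ A) 0) η := fun t t0 t4 =>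
    ⟨(lo_cub hT (ok_pbo hZ _ _) fun A o => mul_pos t0 (a0 A o)).toTr,
      hA X Unit Empty O _ 0 (by simpa using hn) (fun A o => mul_pos t0 (a0 A o)) fun l =>
        le_trans (mul_le_mul t4 (by split_ifs; exacts [sc_one hσ _, le_rfl]) (a0 _ none).le
          (by norm_num)) (hL l)⟩
  obtain ⟨k1, k2⟩ := a1 1 one_pos (by norm_num)
  obtain ⟨k3, k4⟩ := a1 (1 + 3 * (2 ^ Fintype.card X * δ)) (by linarith) (by linarith)
  simp only [one_mul] at k1 k2
  let φ : (LT T cl m O → ℤ) ≃ (LT T cl m O → ℤ) := ⟨sub (ex M), sub (ex M'),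
    sub_inv hC (cm_ex h') (cm_ex h) (ex_inv e), sub_inv hC (cm_ex h) (cm_ex h') (ex_inv e')⟩
  refine (cmp k1 k3 (t := 3 * (2 ^ Fintype.card X * δ)) (by linarith) ?_ rfl φ
    (k2 _ (dc_b0 Z _ _)) (k4 _ (dc_b0 Z _ _)) hη (fun z hz => supp_sub h p hz) (fun z hz => ?_)
    (F := fun z => ind (E z)) (fun _ => ind_nonneg _) fun _ => ind_le _).trans ?_
  · ext l l'
    exact mul_assoc _ _ _
  · have e1 : ∀ x : LT T cl m O → ℝ, msk (b0 T cl m O Unit Empty P) (sub (ex M) x -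
        ((pbo Z (O.j Unit) Empty).pr _ m (sub (ex M) x) + 0)) = sub (ex M)
          (msk (b0 T cl m O Unit Empty P) (x - ((pbo Z (O.j Unit) Empty).pr _ m x + 0))) := by
      intro x
      funext k
      by_cases hk : k ∈ b0 T cl m O Unit Empty P
      · rw [msk_pos _ hk, add_zero, add_zero, Pi.sub_apply,
          hP T _ W _ _ Z m _ _ _ _ _ _ hZ (cm_ex h) (jm_ex h) x k (mem_b0.1 hk), ← sub_sub']
        exact sub_congr fun l _ h0 => (msk_pos _ (b0_dn h h0 hk)).symm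
      · rw [msk_neg _ hk, supp_sub h p (fun i hi => msk_neg _ hi) k hk]
    change qq _ (msk _ (toR (sub (ex M) z) - (Sys.pr _ _ _ (toR (sub (ex M) z)) + 0))) ≤ _
    rw [toR_sub_lb, e1]
    refine qq_shear hT.pd h hσ hδ hε hM fun l hl => msk_neg _ fun k => ?_
    obtain ⟨x, e2, -⟩ := mem_b0.1 k _ hl
    cases e2
  · refine add_le_add le_rfl (add_le_add le_rfl ?_)
    rw [← mul_assoc]
    exact mul_le_mul_of_nonneg_left (Nat.cast_le.2 (card_le_univ _)) (by positivity)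

end

end Vale.Agent.P057SR
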