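import Vale.Agent.P057DP.Plan
import Vale.Agent.P057PC.Blow
import Vale.Agent.P057MA.Scl

/-!
A nearly diagonal block operator nearly preserves lengths; comparison of expectations along a
nearly isometric bijection.
-/

set_option linter.all false

open Matrix Finset Real
open Vale.Agent.P267.H775 Vale.Agent.P057G Vale.Agent.P057MA Vale.Agent.P057PC
open Vale.Agent.P057DP

namespace Vale.Agent.P057SR

noncomputable section

theorem qq_add_t {ι : Type*} [Fintype ι] {G : Matrix ι ι ℝ} (hG : G.PosSemidef) (u v : ι → ℝ)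
    {δ : ℝ} (hδ : 0 < δ) : qq G (u + v) ≤ (1 + δ) * qq G u + (1 + 1 / δ) * qq G v := by
  have h1 := qq_nonneg hG (δ • u - v)
  rw [qq_sub hG.1, qq_smul] at h1
  have h2 : bb G (δ • u) v = δ * bb G u v := by simp only [bb, smul_dotProduct, smul_eq_mul]
  rw [h2] at h1
  have h4 : 2 * bb G u v ≤ (δ ^ 2 * qq G u + qq G v) / δ := by
    rw [le_div_iff₀ hδ]; linarith
  rw [qq_add hG.1]
  have e : (δ ^ 2 * qq G u + qq G v) / δ = δ * qq G u + 1 / δ * qq G v := by field_simp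
  linarith

/-- the block estimate -/
theorem blk_le {ι F : Type*} [Fintype ι] [Fintype F] [DecidableEq F] {H : Matrix ι ι ℝ}
    (hH : H.PosSemidef) (s : Finset F) (u : F → ι → ℝ) (hu : ∀ A ∉ s, u A = 0) (a : F → ℝ)
    (ha : ∀ A, 0 ≤ a A) (c : F → F → ℝ) (hc : ∀ A B, |c A B| ≤ 1) {δ N : ℝ} (hδ : 0 ≤ δ)
    (hN : s.card ≤ N) (hε : N * δ ≤ 1)
    (h : ∀ A ∈ s, ∀ B, c A B ≠ 0 → B ∈ s ∧ (A = B ∨ a B ≤ δ ^ 2 * a A)) :
    ∑ B, a B * qq H (∑ A, c A B • u A) ≤ (1 + 3 * (N * δ)) * ∑ A, a A * qq H (u A) := by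
  set S := ∑ A, a A * qq H (u A) with hS
  have t0 : ∀ A, 0 ≤ a A * qq H (u A) := fun A => mul_nonneg (ha A) (qq_nonneg hH _)
  have S0 : 0 ≤ S := sum_nonneg fun A _ => t0 A
  have N0 : 0 ≤ N := (Nat.cast_nonneg _).trans hN
  have c2 : ∀ A B, c A B ^ 2 ≤ 1 := fun A B => by
    rw [← sq_abs]; exact pow_le_one₀ (abs_nonneg _) (hc A B)
  let r : F → ι → ℝ := fun B => ∑ A ∈ s.erase B, c A B • u A
  have e1 : ∀ B, ∑ A, c A B • u A = c B B • u B + r B := fun B => by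
    rw [← add_sum_erase _ _ (mem_univ B)]
    congr 1
    refine (sum_subset (erase_subset_erase _ (subset_univ s)) fun A h1 h2 => ?_).symm
    rw [hu A fun h3 => h2 (mem_erase.2 ⟨(mem_erase.1 h1).1, h3⟩), smul_zero]
  have b1 : ∑ B, a B * qq H (c B B • u B) ≤ S := sum_le_sum fun B _ => by
    rw [qq_smul, mul_left_comm]
    exact mul_le_of_le_one_left (t0 B) (c2 B B)
  have b2 : ∀ B, a B * qq H (r B) ≤ N * (δ ^ 2 * S) := fun B => by
    refine (mul_le_mul_of_nonneg_left (qq_sum_le hH _ _) (ha B)).trans ?_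
    rw [mul_left_comm]
    refine mul_le_mul ((Nat.cast_le.2 card_erase_le).trans hN) ?_
      (mul_nonneg (ha B) (sum_nonneg fun _ _ => qq_nonneg hH _)) N0
    rw [mul_sum, hS, mul_sum]
    refine (sum_le_sum fun A hA => ?_).trans (sum_le_sum_of_subset_of_nonneg
      (subset_univ (s.erase B)) fun A _ _ => mul_nonneg (sq_nonneg δ) (t0 A))
    rw [qq_smul]
    by_cases h0 : c A B = 0
    · rw [h0, zero_pow two_ne_zero, zero_mul, mul_zero]
      exact mul_nonneg (sq_nonneg δ) (t0 A)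
    · have h1 := (h A (mem_erase.1 hA).2 B h0).2.resolve_left (mem_erase.1 hA).1
      have h2 := qq_nonneg hH (u A)
      rw [← mul_assoc (δ ^ 2)]
      exact mul_le_mul h1 (mul_le_of_le_one_left h2 (c2 A B)) (mul_nonneg (sq_nonneg _) h2)
        (mul_nonneg (sq_nonneg δ) (ha A))
  have b3 : ∑ B, a B * qq H (r B) ≤ (N * δ) ^ 2 * S := by
    rw [← sum_subset (subset_univ s) fun B _ hB => ?_]
    · refine (sum_le_card_nsmul _ _ _ fun B _ => b2 B).trans ?_
      rw [nsmul_eq_mul]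
      calc (s.card : ℝ) * (N * (δ ^ 2 * S)) ≤ N * (N * (δ ^ 2 * S)) :=
            mul_le_mul_of_nonneg_right hN (by positivity)
        _ = _ := by ring
    · have : r B = 0 := sum_eq_zero fun A hA => by
        rw [by_contra fun h0 : ¬ c A B = 0 => hB (h A (mem_erase.1 hA).2 B h0).1, zero_smul]
      rw [this, qq_zero, mul_zero]
  have b4 : ∀ t, 0 < t → ∑ B, a B * qq H (∑ A, c A B • u A) ≤
      (1 + t) * S + (1 + 1 / t) * ((N * δ) ^ 2 * S) := fun t ht => by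
    have k : ∑ B, a B * qq H (∑ A, c A B • u A) ≤
        (1 + t) * ∑ B, a B * qq H (c B B • u B) + (1 + 1 / t) * ∑ B, a B * qq H (r B) := by
      rw [mul_sum, mul_sum, ← sum_add_distrib]
      refine sum_le_sum fun B _ => ?_
      rw [e1]
      refine (mul_le_mul_of_nonneg_left (qq_add_t hH _ _ ht) (ha B)).trans (le_of_eq ?_)
      ring
    refine k.trans (add_le_add ?_ ?_)
    · exact mul_le_mul_of_nonneg_left b1 (by positivity)
    · exact mul_le_mul_of_nonneg_left b3 (by positivity)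
  rcases (mul_nonneg N0 hδ).eq_or_lt with h0 | h0
  · rw [← h0] at b4 ⊢
    refine le_of_forall_pos_le_add fun e he => (b4 (e / (S + 1)) (by positivity)).trans ?_
    have : e / (S + 1) * S ≤ e := by
      rw [div_mul_eq_mul_div, div_le_iff₀ (by positivity)]
      nlinarith
    nlinarith
  · refine (b4 _ h0).trans ?_
    generalize N * δ = ε at *
    have e : (1 + 1 / ε) * (ε ^ 2 * S) = (ε ^ 2 + ε) * S := by field_simp
    rw [e]
    nlinarith [mul_nonneg (mul_nonneg h0.le (sub_nonneg.2 hε)) S0]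

theorem num_cmp {t η m m' : ℝ} (n : ℕ) (ht : 0 ≤ t) (hm : |m - 1| ≤ η) (hm' : |m' - 1| ≤ η)
    (hη : η ≤ 1) : m - m' * (√(1 + t))⁻¹ ^ n ≤ 2 * η + t * n := by
  have k1 : 1 ≤ √(1 + t) := one_le_sqrt.2 (by linarith)
  have k2 : √(1 + t) ^ 2 = 1 + t := sq_sqrt (by linarith)
  have b1 : 1 - t ≤ (√(1 + t))⁻¹ := by
    rw [← one_div, le_div_iff₀ (by linarith)]
    nlinarith
  have b2 := one_add_mul_le_pow (a := (√(1 + t))⁻¹ - 1)
    (by linarith [inv_pos.2 (one_pos.trans_le k1)]) n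
  rw [add_sub_cancel] at b2
  have b3 : 1 - t * n ≤ (√(1 + t))⁻¹ ^ n := by
    nlinarith [(Nat.cast_nonneg n : (0 : ℝ) ≤ n)]
  have b4 : (√(1 + t))⁻¹ ^ n ≤ 1 :=
    pow_le_one₀ (inv_nonneg.2 (sqrt_nonneg _)) (inv_le_one_of_one_le₀ k1)
  have b5 : 0 ≤ (√(1 + t))⁻¹ ^ n := by positivity
  generalize (√(1 + t))⁻¹ ^ n = τ at *
  have m1 := (abs_le.1 hm).2
  have m2 := (abs_le.1 hm').1
  have m3 := (abs_nonneg _).trans hm
  nlinarith [mul_le_mul_of_nonneg_right m2 b5, mul_nonneg m3 (sub_nonneg.2 b4)]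

theorem num_pt {a b c f : ℝ} (h1 : c ≤ a) (h2 : c ≤ b) (f0 : 0 ≤ f) (f1 : f ≤ 1) :
    a * f ≤ b * f + (a - c) := by
  nlinarith [mul_nonneg (sub_nonneg.2 h2) f0, mul_nonneg (sub_nonneg.2 h1) (sub_nonneg.2 f1)]

variable {V ι : Type} [Fintype ι] [DecidableEq ι] {S S' : MS V ι}

theorem hasSum_Er (h : Tr S) (q : Finset ι) {G : (ι → ℤ) → ℝ} (hG : ∀ z, |G z| ≤ 1) :
    HasSum (fun z => nw S q z * G z) (Er S q G) :=
  (summable_mul_real (h.summable_nw q) (nw_nonneg S q) hG).hasSum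

theorem hasSum_nw (h : Tr S) (q : Finset ι) : HasSum (nw S q) (S.mass q) := by
  rw [← tsum_nw]; exact (h.summable_nw q).hasSum

/-- comparison of expectations along a nearly isometric bijection -/
theorem cmp (h : Tr S) (h' : Tr S') {q : Finset ι} {t η : ℝ} (ht : 0 ≤ t)
    (hG : S'.G = (1 + t) • S.G) (hp : S'.p = S.p) (φ : (ι → ℤ) ≃ (ι → ℤ))
    (hm : |S.mass q - 1| ≤ η) (hm' : |S'.mass q - 1| ≤ η) (hη : η ≤ 1)
    (h0 : ∀ z, (∀ i, i ∉ q → z i = 0) → ∀ i, i ∉ q → φ z i = 0)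
    (h1 : ∀ z, (∀ i, i ∉ q → z i = 0) → ln2 S q (toR (φ z)) ≤ (1 + t) * ln2 S q (toR z))
    {F : (ι → ℤ) → ℝ} (F0 : ∀ z, 0 ≤ F z) (F1 : ∀ z, F z ≤ 1) :
    Er S q F ≤ Er S q (fun z => F (φ z)) + (2 * η + t * q.card) := by
  have F2 : ∀ z, |F z| ≤ 1 := fun z => by rw [abs_of_nonneg (F0 z)]; exact F1 z
  have l1 : ∀ z, ln2 S' q z = (1 + t) * ln2 S q z := fun z => by
    rw [ln2, ln2, hG, hp, qq_smul_mat]
  have p0 := vl_pos h.pd q
  have a1 : ∀ z, S'.wt q z ≤ S.wt q (φ z) := fun z => by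
    rw [wt_eq, wt_eq]
    split_ifs with a b b
    · rw [l1]
      exact exp_le_exp.2 (neg_le_neg (mul_le_mul_of_nonneg_left (h1 z a) pi_pos.le))
    · exact absurd (h0 z a) b
    · exact (exp_pos _).le
    · exact le_rfl
  have a2 : ∀ z, S'.wt q z ≤ S.wt q z := fun z => by
    rw [wt_eq, wt_eq]
    split_ifs with a
    · rw [l1]
      refine exp_le_exp.2 (neg_le_neg (mul_le_mul_of_nonneg_left ?_ pi_pos.le))
      exact le_mul_of_one_le_left (qq_nonneg h.pd.posSemidef _) (by linarith)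
    · exact le_rfl
  have s1 := (φ.hasSum_iff (f := fun z => nw S q z * F z)).2 (hasSum_Er h q F2)
  have s2 := (φ.hasSum_iff (f := nw S q)).2 (hasSum_nw h q)
  have s3 := (h'.summable q).hasSum.div_const (vl S.G q)
  have s4 := (hasSum_Er h q fun z => F2 (φ z)).add (s2.sub s3)
  have e : (∑' z, S'.wt q z) / vl S.G q = S'.mass q * (√(1 + t))⁻¹ ^ q.card := by
    have : (√(1 + t))⁻¹ ^ q.card ≠ 0 := by positivity
    rw [MS.mass, hG, vl_smul (by linarith), div_mul_eq_mul_div, mul_comm, mul_div_mul_left _ _ this]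
  rw [e] at s4
  refine (hasSum_le (fun z => ?_) s1 s4).trans (add_le_add le_rfl (num_cmp _ ht hm hm' hη))
  exact num_pt (div_le_div_of_nonneg_right (a1 z) p0.le) (div_le_div_of_nonneg_right (a2 z) p0.le)
    (F0 _) (F1 _)

end

end Vale.Agent.P057SR
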